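import Vale.Agent.P066.Theta.H988.Generic
import Vale.Agent.P066.Theta.H463.TT

/-!
# The numerical lemmas of one step of the flow `Q + s ω(·, b)`
-/

set_option autoImplicit false

open Finset

namespace Vale.Agent.P066.Theta.H988

noncomputable section

open Vale.Agent.P066.Theta

variable {r : ℕ} {B : Matrix (Fin r) (Fin r) ℤ}

/-- `ω(x, b)`. -/
abbrev om (B : Matrix (Fin r) (Fin r) ℤ) (x b : Fin r →₀ ℕ) : ℤ := omega B (toZ x) (toZ b)

/-- The classes of degree `≤ D` whose wall is still to be crossed. -/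
def defect (B : Matrix (Fin r) (Fin r) ℤ) (Q : Fin r → ℤ) (D : ℕ) (b : Fin r →₀ ℕ) :
    Finset (Fin r →₀ ℕ) := (degSet r D).filter fun x => wt Q x * om B x b < 0

theorem mem_defect {Q : Fin r → ℤ} {D : ℕ} {b x : Fin r →₀ ℕ} :
    x ∈ defect B Q D b ↔ deg x ≤ D ∧ wt Q x * om B x b < 0 := by
  rw [defect, mem_filter, mem_degSet]

theorem om_smul_left (n : ℕ) (x b : Fin r →₀ ℕ) : om B (n • x) b = n * om B x b := by
  rw [om, om, ← wt_chartAt_zero, ← wt_chartAt_zero, wt_smul]

theorem om_self (hB : B.transpose = -B) (b : Fin r →₀ ℕ) : om B b b = 0 := omega_self hB _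

/-- No defect: `Q` is close to the ray. -/
theorem nearRay_of_defect (hB : B.transpose = -B) {Q : Fin r → ℤ} {D : ℕ} {b : Fin r →₀ ℕ}
    (hQ : IsWallAt Q D b) (h : defect B Q D b = ∅) : NearRay B Q D b := by
  have key : ∀ b' : Fin r →₀ ℕ, deg b' ≤ D → om B b' b ≠ 0 → 0 < wt Q b' * om B b' b := by
    intro b' hd ho
    have h1 : ¬ wt Q b' * om B b' b < 0 := fun hc => by
      have : b' ∈ defect B Q D b := mem_defect.2 ⟨hd, hc⟩
      rw [h] at this
      simp at this
    have h2 : wt Q b' ≠ 0 := by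
      intro hc
      by_cases hz : b' = 0
      · subst hz
        apply ho
        have := om_smul_left (B := B) 0 b b
        simpa using this
      · obtain ⟨n, hn⟩ := hQ.2 b' hz hd hc
        rw [hn, om_smul_left, om_self hB, mul_zero] at ho
        exact ho rfl
    exact lt_of_le_of_ne (not_lt.1 h1) (mul_ne_zero h2 ho).symm
  constructor
  · intro b' hd ho
    have := key b' hd (ne_of_gt ho)
    by_contra hc
    push Not at hc
    have h3 : wt Q b' * om B b' b ≤ 0 := mul_nonpos_of_nonpos_of_nonneg hc ho.le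
    omega
  · intro b' hd ho
    have := key b' hd (ne_of_lt ho)
    by_contra hc
    push Not at hc
    have h3 : wt Q b' * om B b' b ≤ 0 := mul_nonpos_of_nonneg_of_nonpos hc ho.le
    omega

/-- The first class to be crossed. -/
theorem exists_min {Q : Fin r → ℤ} {D : ℕ} {b : Fin r →₀ ℕ} (h : defect B Q D b ≠ ∅) :
    ∃ x₀, deg x₀ ≤ D ∧ wt Q x₀ * om B x₀ b < 0 ∧
      ∀ x, deg x ≤ D → wt Q x * om B x b < 0 →
        |wt Q x₀| * |om B x b| ≤ |wt Q x| * |om B x₀ b| := by
  obtain ⟨x₀, hx₀, hmin⟩ := Finset.exists_min_image (defect B Q D b)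
    (fun x => (|wt Q x| : ℚ) / |(om B x b : ℚ)|) (Finset.nonempty_of_ne_empty h)
  rw [mem_defect] at hx₀
  refine ⟨x₀, hx₀.1, hx₀.2, fun x hd hx => ?_⟩
  have h1 := hmin x (mem_defect.2 ⟨hd, hx⟩)
  have ho : ∀ y : Fin r →₀ ℕ, wt Q y * om B y b < 0 → (0 : ℚ) < |(om B y b : ℚ)| := by
    intro y hy
    rw [abs_pos]
    intro hc
    have : om B y b = 0 := by exact_mod_cast hc
    rw [this, mul_zero] at hy
    exact absurd hy (lt_irrefl _)
  rw [div_le_div_iff₀ (ho x₀ hx₀.2) (ho x hx)] at h1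
  exact_mod_cast h1

/-- The form of the joint. -/
def joint (B : Matrix (Fin r) (Fin r) ℤ) (Q : Fin r → ℤ) (b x₀ : Fin r →₀ ℕ) : Fin r → ℤ :=
  |om B x₀ b| • Q + |wt Q x₀| • chartAt B 0 b

theorem wt_joint (Q : Fin r → ℤ) (b x₀ x : Fin r →₀ ℕ) :
    wt (joint B Q b x₀) x = |om B x₀ b| * wt Q x + |wt Q x₀| * om B x b := by
  rw [joint, wt_add_left, wt_smul_left, wt_smul_left, wt_chartAt_zero]

theorem joint_self {Q : Fin r → ℤ} {b x₀ : Fin r →₀ ℕ} (h : wt Q x₀ * om B x₀ b < 0) :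
    wt (joint B Q b x₀) x₀ = 0 := by
  rw [wt_joint]
  rcases mul_neg_iff.1 h with ⟨h1, h2⟩ | ⟨h1, h2⟩
  · rw [abs_of_pos h1, abs_of_neg h2]; ring
  · rw [abs_of_neg h1, abs_of_pos h2]; ring

theorem joint_b (hB : B.transpose = -B) {Q : Fin r → ℤ} {b x₀ : Fin r →₀ ℕ}
    (hQ : wt Q b = 0) : wt (joint B Q b x₀) b = 0 := by
  rw [wt_joint, hQ, om_self hB]; ring

/-- The classes of the joint lie in the rank two lattice. -/
theorem mem_Lam_of_joint {Q : Fin r → ℤ} {D : ℕ} {b x₀ : Fin r →₀ ℕ}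
    (hG : Generic B Q D b) (hb : b ≠ 0) (hx₀ : deg x₀ ≤ D) (h : wt Q x₀ * om B x₀ b < 0)
    (γ : Fin r →₀ ℕ) (hγ : deg γ ≤ D) (h0 : wt (joint B Q b x₀) γ = 0) :
    toZ γ ∈ Lam (toZ b) (toZ x₀) := by
  have ho : om B x₀ b ≠ 0 := by
    intro hc
    rw [hc, mul_zero] at h
    exact absurd h (lt_irrefl _)
  refine hG.mem_Lam hb hx₀ hγ ho ?_
  rw [wt_joint] at h0
  show wt Q γ * om B x₀ b = wt Q x₀ * om B γ b
  rcases mul_neg_iff.1 h with ⟨h1, h2⟩ | ⟨h1, h2⟩
  · rw [abs_of_pos h1, abs_of_neg h2] at h0; linarith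
  · rw [abs_of_neg h1, abs_of_pos h2] at h0; linarith

/-- A bound for `|ω(x, b)|`, `deg x ≤ D`. -/
theorem exists_bound (B : Matrix (Fin r) (Fin r) ℤ) (D : ℕ) (b : Fin r →₀ ℕ) :
    ∃ n : ℤ, 0 < n ∧ ∀ x, deg x ≤ D → |om B x b| < n := by
  refine ⟨1 + ∑ x ∈ degSet r D, |om B x b|, ?_, fun x hx => ?_⟩
  · have : 0 ≤ ∑ x ∈ degSet r D, |om B x b| := Finset.sum_nonneg fun _ _ => abs_nonneg _
    omega
  · have := Finset.single_le_sum (f := fun x => |om B x b|) (fun x _ => abs_nonneg _)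
      (mem_degSet.2 hx)
    omega

theorem refines_of_bound {D : ℕ} {Qs : Fin r → ℤ} {b : Fin r →₀ ℕ} {n : ℤ}
    (hn : ∀ x, deg x ≤ D → |om B x b| < n) :
    H463.Refines D (n • Qs + chartAt B 0 b) Qs (chartAt B 0 b) := by
  intro γ hγ
  have h1 := abs_lt.1 (hn γ hγ)
  have h0 : 0 < n := lt_of_le_of_lt (abs_nonneg _) (hn γ hγ)
  have e : wt (n • Qs + chartAt B 0 b) γ = n * wt Qs γ + om B γ b := by
    rw [wt_add_left, wt_smul_left, wt_chartAt_zero]
  have e' : wt (chartAt B 0 b) γ = om B γ b := wt_chartAt_zero _ _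
  refine ⟨fun h => ?_, fun h => ?_, fun h => ?_⟩
  · rw [e]; nlinarith
  · rw [e]; nlinarith
  · rw [e, e', h, mul_zero, zero_add]
    exact ⟨id, id, id⟩

theorem refines_neg_of_bound {D : ℕ} {Qs : Fin r → ℤ} {b : Fin r →₀ ℕ} {n : ℤ}
    (hn : ∀ x, deg x ≤ D → |om B x b| < n) :
    H463.Refines D (n • Qs - chartAt B 0 b) Qs (-(chartAt B 0 b)) := by
  intro γ hγ
  have h1 := abs_lt.1 (hn γ hγ)
  have h0 : 0 < n := lt_of_le_of_lt (abs_nonneg _) (hn γ hγ)
  have e : wt (n • Qs - chartAt B 0 b) γ = n * wt Qs γ - om B γ b := by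
    rw [sub_eq_add_neg, wt_add_left, wt_smul_left, wt_neg, wt_chartAt_zero]; ring
  have e' : wt (-(chartAt B 0 b)) γ = -om B γ b := by rw [wt_neg, wt_chartAt_zero]
  refine ⟨fun h => ?_, fun h => ?_, fun h => ?_⟩
  · rw [e]; nlinarith
  · rw [e]; nlinarith
  · rw [e, e', h, mul_zero, zero_sub]
    exact ⟨id, id, id⟩

/-- **One step of the flow.** -/
theorem flow_step (hB : B.transpose = -B) {Q : Fin r → ℤ} {D : ℕ} {b x₀ : Fin r →₀ ℕ}
    (hG : Generic B Q D b) (hx₀ : deg x₀ ≤ D) (hneg : wt Q x₀ * om B x₀ b < 0)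
    (hmin : ∀ x, deg x ≤ D → wt Q x * om B x b < 0 →
      |wt Q x₀| * |om B x b| ≤ |wt Q x| * |om B x₀ b|) :
    ∃ n : ℤ, 0 < n ∧
      Generic B (n • joint B Q b x₀ + chartAt B 0 b) D b ∧
      H463.SameSign D Q (n • joint B Q b x₀ - chartAt B 0 b) ∧
      H463.Refines D (n • joint B Q b x₀ + chartAt B 0 b) (joint B Q b x₀) (chartAt B 0 b) ∧
      H463.Refines D (n • joint B Q b x₀ - chartAt B 0 b) (joint B Q b x₀) (-(chartAt B 0 b)) ∧
      (defect B (n • joint B Q b x₀ + chartAt B 0 b) D b).card < (defect B Q D b).card := by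
  obtain ⟨n, hn0, hn⟩ := exists_bound B D b
  set Qs := joint B Q b x₀ with hQs
  have hws : ∀ x, wt Qs x = |om B x₀ b| * wt Q x + |wt Q x₀| * om B x b := wt_joint Q b x₀
  have ho0 : 0 < |om B x₀ b| := by
    rw [abs_pos]; intro hc; rw [hc, mul_zero] at hneg; exact absurd hneg (lt_irrefl _)
  have hq0 : 0 < |wt Q x₀| := by
    rw [abs_pos]; intro hc; rw [hc, zero_mul] at hneg; exact absurd hneg (lt_irrefl _)
  have ep : ∀ x, wt (n • Qs + chartAt B 0 b) x = n * wt Qs x + om B x b := fun x => by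
    rw [wt_add_left, wt_smul_left, wt_chartAt_zero]
  have em : ∀ x, wt (n • Qs - chartAt B 0 b) x = n * wt Qs x - om B x b := fun x => by
    rw [sub_eq_add_neg, wt_add_left, wt_smul_left, wt_neg, wt_chartAt_zero]; ring
  -- signs of the joint form
  have hpos : ∀ x, deg x ≤ D → 0 < wt Q x → 0 < wt Qs x ∨ (wt Qs x = 0 ∧ om B x b < 0) := by
    intro x hd hx
    rw [hws]
    rcases lt_or_ge (om B x b) 0 with ho | ho
    · have h1 := hmin x hd (mul_neg_of_pos_of_neg hx ho)
      rw [abs_of_neg ho, abs_of_pos hx] at h1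
      rcases lt_or_eq_of_le h1 with h2 | h2
      · left; nlinarith
      · right; exact ⟨by linarith, ho⟩
    · left
      have h1 : 0 < |om B x₀ b| * wt Q x := mul_pos ho0 hx
      have h2 : 0 ≤ |wt Q x₀| * om B x b := mul_nonneg hq0.le ho
      linarith
  have hnegs : ∀ x, deg x ≤ D → wt Q x < 0 → wt Qs x < 0 ∨ (wt Qs x = 0 ∧ 0 < om B x b) := by
    intro x hd hx
    rw [hws]
    rcases lt_or_ge 0 (om B x b) with ho | ho
    · have h1 := hmin x hd (mul_neg_of_neg_of_pos hx ho)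
      rw [abs_of_pos ho, abs_of_neg hx] at h1
      rcases lt_or_eq_of_le h1 with h2 | h2
      · left; nlinarith
      · right; exact ⟨by linarith, ho⟩
    · left
      have h1 : |om B x₀ b| * wt Q x < 0 := mul_neg_of_pos_of_neg ho0 hx
      have h2 : |wt Q x₀| * om B x b ≤ 0 := mul_nonpos_of_nonneg_of_nonpos hq0.le ho
      linarith
  have hzero : ∀ x, deg x ≤ D → wt Q x = 0 → om B x b = 0 := by
    intro x hd hx
    by_cases hz : x = 0
    · subst hz
      have := om_smul_left (B := B) 0 b b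
      simpa using this
    · obtain ⟨m, hm⟩ := hG.wall.2 x hz hd hx
      rw [hm, om_smul_left, om_self hB, mul_zero]
  refine ⟨n, hn0, ⟨⟨?_, ?_⟩, ?_⟩, ?_, refines_of_bound hn, refines_neg_of_bound hn, ?_⟩
  · rw [ep, hws, hG.wall.1, om_self hB]; ring
  · intro b' hb' hd h0
    rw [ep] at h0
    have h1 := abs_lt.1 (hn b' hd)
    have h2 : wt Qs b' = 0 := by
      rcases lt_trichotomy (wt Qs b') 0 with h | h | h
      · nlinarith
      · exact h
      · nlinarith
    have h3 : om B b' b = 0 := by rw [h2, mul_zero, zero_add] at h0; exact h0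
    refine hG.wall.2 b' hb' hd ?_
    rw [hws, h3, mul_zero, add_zero] at h2
    exact (mul_eq_zero.1 h2).resolve_left ho0.ne'
  · intro x' x'' h' h'' he
    refine hG.joint x' x'' h' h'' ?_
    rw [ep, ep, hws, hws] at he
    have h1 : (n * |om B x₀ b|) * (wt Q x' * om B x'' b - wt Q x'' * om B x' b) = 0 := by
      simp only [om] at he ⊢
      linarith
    have h2 : n * |om B x₀ b| ≠ 0 := (mul_pos hn0 ho0).ne'
    have h3 := (mul_eq_zero.1 h1).resolve_left h2
    exact sub_eq_zero.1 h3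
  · intro γ hγ
    rw [em]
    have h1 := abs_lt.1 (hn γ hγ)
    rcases lt_trichotomy (wt Q γ) 0 with h | h | h
    · have h2 : n * wt Qs γ - om B γ b < 0 := by
        rcases hnegs γ hγ h with h3 | ⟨h3, h4⟩
        · nlinarith
        · rw [h3]; linarith
      constructor <;> constructor <;> intro h5 <;> omega
    · have h3 := hzero γ hγ h
      have h2 : n * wt Qs γ - om B γ b = 0 := by
        rw [hws, h, h3]; ring
      constructor <;> constructor <;> intro h5 <;> omega
    · have h2 : 0 < n * wt Qs γ - om B γ b := by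
        rcases hpos γ hγ h with h3 | ⟨h3, h4⟩
        · nlinarith
        · rw [h3]; linarith
      constructor <;> constructor <;> intro h5 <;> omega
  · apply Finset.card_lt_card
    rw [Finset.ssubset_iff_of_subset]
    · refine ⟨x₀, mem_defect.2 ⟨hx₀, hneg⟩, fun hc => ?_⟩
      have h1 := (mem_defect.1 hc).2
      rw [ep, hQs, joint_self hneg, mul_zero, zero_add] at h1
      exact absurd h1 (not_lt.2 (mul_self_nonneg _))
    · intro x hx
      rw [mem_defect] at hx ⊢
      refine ⟨hx.1, ?_⟩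
      have h1 := hx.2
      rw [ep, hws] at h1
      by_contra hc
      push Not at hc
      have h2 : (n * (|om B x₀ b| * wt Q x + |wt Q x₀| * om B x b) + om B x b) * om B x b
          = n * |om B x₀ b| * (wt Q x * om B x b) +
            (n * |wt Q x₀| + 1) * (om B x b * om B x b) := by ring
      rw [h2] at h1
      have h3 : 0 ≤ n * |om B x₀ b| * (wt Q x * om B x b) :=
        mul_nonneg (mul_pos hn0 ho0).le hc
      have h4 : 0 ≤ (n * |wt Q x₀| + 1) * (om B x b * om B x b) :=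
        mul_nonneg (by have := mul_pos hn0 hq0; omega) (mul_self_nonneg _)
      linarith

/-- Two parallel classes, the second one primitive. -/
theorem eq_smul_of_par {b' b₂ : Fin r →₀ ℕ} (hb₂ : b₂ ≠ 0)
    (hprim : ∀ (n : ℕ) (c : Fin r →₀ ℕ), n • c = b₂ → n = 1)
    (h : Par (toZ b') (toZ b₂)) : ∃ n : ℕ, b' = n • b₂ := by
  obtain ⟨j, hj⟩ : ∃ j, b₂ j ≠ 0 := by
    by_contra hc
    push Not at hc
    exact hb₂ (Finsupp.ext hc)
  have hc : ∀ i, b' i * b₂ j = b' j * b₂ i := by
    intro i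
    have := h i j
    simp only [toZ] at this
    exact_mod_cast this
  set g := Nat.gcd (b' j) (b₂ j) with hg
  have hgpos : 0 < g := Nat.gcd_pos_of_pos_right _ (Nat.pos_of_ne_zero hj)
  obtain ⟨p, hp⟩ : g ∣ b' j := Nat.gcd_dvd_left _ _
  obtain ⟨q, hq⟩ : g ∣ b₂ j := Nat.gcd_dvd_right _ _
  have hcop : Nat.Coprime p q := by
    have h1 : Nat.gcd (g * p) (g * q) = g := by rw [← hp, ← hq]
    rw [Nat.gcd_mul_left] at h1
    exact Nat.eq_of_mul_eq_mul_left hgpos (by rw [h1, mul_one])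
  have hc' : ∀ i, b' i * q = p * b₂ i := by
    intro i
    have h1 := hc i
    rw [hp, hq] at h1
    apply Nat.eq_of_mul_eq_mul_left hgpos
    calc g * (b' i * q) = b' i * (g * q) := by ring
      _ = g * p * b₂ i := h1
      _ = _ := by ring
  have hdiv : ∀ i, q ∣ b₂ i := by
    intro i
    have h1 : q ∣ p * b₂ i := ⟨b' i, by rw [← hc' i]; ring⟩
    exact (Nat.Coprime.symm hcop).dvd_of_dvd_mul_left h1
  have hq1 : q = 1 := by
    refine hprim q (Finsupp.equivFunOnFinite.symm fun i => b₂ i / q) ?_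
    ext i
    simp only [Finsupp.smul_apply, smul_eq_mul, Finsupp.equivFunOnFinite_symm_apply_apply]
    exact Nat.mul_div_cancel' (hdiv i)
  refine ⟨p, ?_⟩
  ext i
  have := hc' i
  rw [hq1, mul_one] at this
  simpa using this

theorem omega_smul_left (n : ℤ) (x y : Fin r → ℤ) : omega B (n • x) y = n * omega B x y := by
  simp only [omega, Pi.smul_apply, smul_eq_mul, mul_sum]
  exact sum_congr rfl fun i _ => sum_congr rfl fun j _ => by ring

theorem omega_smul_right (n : ℤ) (x y : Fin r → ℤ) : omega B x (n • y) = n * omega B x y := by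
  simp only [omega, Pi.smul_apply, smul_eq_mul, mul_sum]
  exact sum_congr rfl fun i _ => sum_congr rfl fun j _ => by ring

/-- Two vectors of the rank two lattice with `ω = 0` are parallel. -/
theorem par_of_mem_Lam (hB : B.transpose = -B) {u w x y : Fin r → ℤ} (huw : omega B w u ≠ 0)
    (hx : x ∈ Lam u w) (hy : y ∈ Lam u w) (h : omega B x y = 0) : Par x y := by
  obtain ⟨a, c, d, ha, hx⟩ := hx
  obtain ⟨a', c', d', ha', hy⟩ := hy
  have h1 : omega B (a • x) (a' • y) = 0 := by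
    rw [omega_smul_left, omega_smul_right, h]; ring
  rw [hx, hy, omega_add_left, omega_add_right, omega_add_right] at h1
  simp only [omega_smul_left, omega_smul_right, omega_self hB] at h1
  rw [omega_swap hB u w] at h1
  have h2 : (d * c' - c * d') * omega B w u = 0 := by linarith
  have h3 : d * c' - c * d' = 0 := (mul_eq_zero.1 h2).resolve_right huw
  intro i j
  have e1 : ∀ k, a * x k = c * u k + d * w k := fun k => by
    have := congrFun hx k
    simpa using this
  have e2 : ∀ k, a' * y k = c' * u k + d' * w k := fun k => by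
    have := congrFun hy k
    simpa using this
  have h4 : a * a' * (x i * y j - x j * y i) = 0 := by
    calc a * a' * (x i * y j - x j * y i)
        = (a * x i) * (a' * y j) - (a * x j) * (a' * y i) := by ring
      _ = (c * u i + d * w i) * (c' * u j + d' * w j) -
            (c * u j + d * w j) * (c' * u i + d' * w i) := by rw [e1, e1, e2, e2]
      _ = (d * c' - c * d') * (w i * u j - w j * u i) := by ring
      _ = 0 := by rw [h3, zero_mul]
  have h5 := (mul_eq_zero.1 h4).resolve_left (mul_ne_zero ha ha')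
  linarith

theorem wt_smulZ_eq_dot (Q : Fin r → ℤ) (γ : Fin r →₀ ℕ) : dot Q (toZ γ) = wt Q γ := rfl

/-- The forms near the joint in the direction of another ray of the lattice. -/
theorem flow_ray (hB : B.transpose = -B) {Q : Fin r → ℤ} {D : ℕ} {b x₀ : Fin r →₀ ℕ}
    (hG : Generic B Q D b) (hb : b ≠ 0) (hx₀ : deg x₀ ≤ D) (hneg : wt Q x₀ * om B x₀ b < 0)
    {b₂ : Fin r →₀ ℕ} (hb₂ : b₂ ≠ 0) (hmem : toZ b₂ ∈ Lam (toZ b) (toZ x₀))
    (hprim : ∀ (n : ℕ) (c : Fin r →₀ ℕ), n • c = b₂ → n = 1) :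
    ∃ n : ℤ, 0 < n ∧
      H463.Refines D (n • joint B Q b x₀ + chartAt B 0 b₂) (joint B Q b x₀) (chartAt B 0 b₂) ∧
      IsWallAt (n • joint B Q b x₀ + chartAt B 0 b₂) D b₂ := by
  obtain ⟨n, hn0, hn⟩ := exists_bound B D b₂
  have e : ∀ x, wt (n • joint B Q b x₀ + chartAt B 0 b₂) x
      = n * wt (joint B Q b x₀) x + om B x b₂ := fun x => by
    rw [wt_add_left, wt_smul_left, wt_chartAt_zero]
  have hJ : wt (joint B Q b x₀) b₂ = 0 := by
    obtain ⟨a, c, d, ha, h⟩ := hmem
    have h1 : dot (joint B Q b x₀) (a • toZ b₂) = 0 := by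
      have hadd : ∀ x y : Fin r → ℤ, dot (joint B Q b x₀) (x + y)
          = dot (joint B Q b x₀) x + dot (joint B Q b x₀) y := by
        intro x y
        simp only [dot, Pi.add_apply, add_mul, sum_add_distrib]
      rw [h, hadd, dot_smul_right, dot_smul_right, wt_smulZ_eq_dot, wt_smulZ_eq_dot,
        joint_self hneg, joint_b hB hG.wall.1]
      ring
    rw [dot_smul_right, wt_smulZ_eq_dot] at h1
    exact (mul_eq_zero.1 h1).resolve_left ha
  refine ⟨n, hn0, refines_of_bound hn, ?_, ?_⟩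
  · rw [e, hJ, om_self hB]; ring
  · intro b' hb' hd h0
    rw [e] at h0
    have h1 := abs_lt.1 (hn b' hd)
    have h2 : wt (joint B Q b x₀) b' = 0 := by
      rcases lt_trichotomy (wt (joint B Q b x₀) b') 0 with h | h | h
      · nlinarith
      · exact h
      · nlinarith
    have h3 : om B b' b₂ = 0 := by rw [h2, mul_zero, zero_add] at h0; exact h0
    have ho : omega B (toZ x₀) (toZ b) ≠ 0 := by
      intro hc
      rw [show om B x₀ b = 0 from hc, mul_zero] at hneg
      exact absurd hneg (lt_irrefl _)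
    exact eq_smul_of_par hb₂ hprim (par_of_mem_Lam hB ho
      (mem_Lam_of_joint hG hb hx₀ hneg b' hd h2) hmem h3)

end

end Vale.Agent.P066.Theta.H988
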