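import Vale.Agent.P066.Theta.H615.Triple

/-!
# Generic forms on a wall, and the saturated rank two lattice of a joint
-/

set_option autoImplicit false

open Finset

namespace Vale.Agent.P066.Theta.H988

noncomputable section

variable {r : ℕ}

/-- The value of the form `Q` at an integer vector. -/
def dot (Q x : Fin r → ℤ) : ℤ := ∑ i, x i * Q i

theorem wt_eq_dot (Q : Fin r → ℤ) (γ : Fin r →₀ ℕ) : wt Q γ = dot Q (toZ γ) := rfl

theorem dot_add_left (Q Q' x : Fin r → ℤ) : dot (Q + Q') x = dot Q x + dot Q' x := by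
  simp only [dot, Pi.add_apply, mul_add, sum_add_distrib]

theorem dot_smul_left (n : ℤ) (Q x : Fin r → ℤ) : dot (n • Q) x = n * dot Q x := by
  simp only [dot, Pi.smul_apply, smul_eq_mul, mul_sum]
  exact sum_congr rfl fun i _ => by ring

theorem dot_sub_right (Q x y : Fin r → ℤ) : dot Q (x - y) = dot Q x - dot Q y := by
  simp only [dot, Pi.sub_apply, sub_mul, sum_sub_distrib]

theorem dot_smul_right (n : ℤ) (Q x : Fin r → ℤ) : dot Q (n • x) = n * dot Q x := by
  simp only [dot, Pi.smul_apply, smul_eq_mul, mul_sum]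
  exact sum_congr rfl fun i _ => by ring

/-- `x` is parallel to `b` (all `2 × 2` minors vanish). -/
def Par (x b : Fin r → ℤ) : Prop := ∀ i j, x i * b j = x j * b i

theorem exists_avoid (b : Fin r → ℤ) (Z : Finset (Fin r → ℤ)) (hZ : ∀ z ∈ Z, ¬ Par z b) :
    ∃ ρ : Fin r → ℤ, dot ρ b = 0 ∧ ∀ z ∈ Z, dot ρ z ≠ 0 := by
  classical
  induction Z using Finset.induction_on with
  | empty => exact ⟨0, by simp [dot], by simp⟩
  | insert z₀ Z hz₀ ih =>
    obtain ⟨ρ, hρb, hρ⟩ := ih fun z hz => hZ z (mem_insert_of_mem hz)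
    have h0 := hZ z₀ (mem_insert_self _ _)
    unfold Par at h0
    push Not at h0
    obtain ⟨i, j, hij⟩ := h0
    set τ : Fin r → ℤ := fun k => (if k = i then b j else 0) - (if k = j then b i else 0) with hτ
    have hd : ∀ z : Fin r → ℤ, dot τ z = z i * b j - z j * b i := by
      intro z
      simp only [dot, hτ, mul_sub, mul_ite, mul_zero, sum_sub_distrib, Finset.sum_ite_eq',
        mem_univ, if_true]
    set N : ℤ := 1 + ∑ z ∈ insert z₀ Z, |dot τ z| with hN
    have hlt : ∀ z ∈ insert z₀ Z, |dot τ z| < N := by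
      intro z hz
      have := Finset.single_le_sum (f := fun z => |dot τ z|) (fun z _ => abs_nonneg _) hz
      omega
    refine ⟨N • ρ + τ, ?_, ?_⟩
    · rw [dot_add_left, dot_smul_left, hρb, hd]; ring
    · intro z hz he
      rw [dot_add_left, dot_smul_left] at he
      have h1 := hlt z hz
      by_cases hz0 : dot ρ z = 0
      · rw [hz0, mul_zero, zero_add, hd] at he
        rcases mem_insert.1 hz with rfl | hz'
        · exact hij (by linarith)
        · exact hρ z hz' hz0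
      · have h2 : dot τ z = -(N * dot ρ z) := by linarith
        rw [h2, abs_neg, abs_mul] at h1
        have h3 : 1 ≤ |dot ρ z| := Int.one_le_abs hz0
        have h4 : 0 < N := lt_of_le_of_lt (abs_nonneg _) (hlt z hz)
        rw [abs_of_pos h4] at h1
        nlinarith

/-- The vectors of degree at most `D`. -/
def degSet (r D : ℕ) : Finset (Fin r →₀ ℕ) :=
  (Finset.Iic (Finsupp.equivFunOnFinite.symm fun _ : Fin r => D)).filter fun γ => deg γ ≤ D

theorem mem_degSet {D : ℕ} {γ : Fin r →₀ ℕ} : γ ∈ degSet r D ↔ deg γ ≤ D := by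
  unfold degSet
  rw [mem_filter, mem_Iic]
  refine ⟨fun h => h.2, fun h => ⟨fun i => ?_, h⟩⟩
  exact le_trans (Finset.single_le_sum (f := fun i => γ i) (fun _ _ => Nat.zero_le _)
    (mem_univ i)) h

/-- `Q` is on the wall `b^⊥`, on no other wall up to degree `D`, and the flow
`Q + s ω(·, b)` meets only joints of rank two (up to degree `D`). -/
structure Generic (B : Matrix (Fin r) (Fin r) ℤ) (Q : Fin r → ℤ) (D : ℕ) (b : Fin r →₀ ℕ) :
    Prop where
  wall : IsWallAt Q D b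
  joint : ∀ x' x'' : Fin r →₀ ℕ, deg x' ≤ D → deg x'' ≤ D →
    wt Q x' * omega B (toZ x'') (toZ b) = wt Q x'' * omega B (toZ x') (toZ b) →
    Par (omega B (toZ x'') (toZ b) • toZ x' - omega B (toZ x') (toZ b) • toZ x'') (toZ b)

/-- Every form which is on the wall `b^⊥` and on no other wall up to degree `D` can be replaced by a
generic one with the same signs up to degree `D`. -/
theorem exists_generic (B : Matrix (Fin r) (Fin r) ℤ) {Q : Fin r → ℤ} {D : ℕ}
    {b : Fin r →₀ ℕ} (hQ : IsWallAt Q D b) :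
    ∃ Q' : Fin r → ℤ, Generic B Q' D b ∧ ∀ γ, deg γ ≤ D → SameSign Q Q' γ := by
  classical
  set cmb : (Fin r →₀ ℕ) → (Fin r →₀ ℕ) → (Fin r → ℤ) := fun x' x'' =>
    omega B (toZ x'') (toZ b) • toZ x' - omega B (toZ x') (toZ b) • toZ x'' with hcmb
  set W : Finset (Fin r → ℤ) := (degSet r D).image toZ ∪
    ((degSet r D) ×ˢ (degSet r D)).image (fun p => cmb p.1 p.2) with hW
  have hW1 : ∀ γ, deg γ ≤ D → toZ γ ∈ W := fun γ h =>
    mem_union_left _ (mem_image_of_mem _ (mem_degSet.2 h))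
  have hW2 : ∀ x' x'', deg x' ≤ D → deg x'' ≤ D → cmb x' x'' ∈ W := fun x' x'' h h' =>
    mem_union_right _ (mem_image.2 ⟨(x', x''), mem_product.2 ⟨mem_degSet.2 h, mem_degSet.2 h'⟩,
      rfl⟩)
  obtain ⟨ρ, hρb, hρ⟩ := exists_avoid (toZ b) (W.filter fun z => ¬ Par z (toZ b))
    (fun z hz => (mem_filter.1 hz).2)
  set M : ℤ := 1 + ∑ z ∈ W, |dot ρ z| with hM
  have hlt : ∀ z ∈ W, |dot ρ z| < M := by
    intro z hz
    have := Finset.single_le_sum (f := fun z => |dot ρ z|) (fun z _ => abs_nonneg _) hz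
    omega
  have hM0 : 0 < M := by
    have : 0 ≤ ∑ z ∈ W, |dot ρ z| := Finset.sum_nonneg fun z _ => abs_nonneg _
    omega
  have hdot : ∀ z, dot (M • Q + ρ) z = M * dot Q z + dot ρ z := by
    intro z; rw [dot_add_left, dot_smul_left]
  have hsign : ∀ γ, deg γ ≤ D → SameSign Q (M • Q + ρ) γ := by
    intro γ hγ
    have h1 := hlt _ (hW1 γ hγ)
    have h2 := abs_lt.1 h1
    have h3 : wt (M • Q + ρ) γ = M * wt Q γ + dot ρ (toZ γ) := hdot _
    rcases lt_trichotomy (wt Q γ) 0 with h | h | h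
    · have h4 : M * wt Q γ ≤ -M := by nlinarith
      constructor <;> constructor <;> intro h5 <;> omega
    · have h4 : dot ρ (toZ γ) = 0 := by
        by_cases hz : γ = 0
        · subst hz; simp [dot, toZ]
        · obtain ⟨n, hn⟩ := hQ.2 γ hz hγ h
          have : toZ γ = (n : ℤ) • toZ b := by
            funext i; rw [hn]; simp [toZ]
          rw [this, dot_smul_right, hρb, mul_zero]
      constructor <;> constructor <;> intro h5 <;> rw [h, mul_zero] at h3 <;> omega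
    · have h4 : M ≤ M * wt Q γ := by nlinarith
      constructor <;> constructor <;> intro h5 <;> omega
  refine ⟨M • Q + ρ, ⟨⟨?_, ?_⟩, ?_⟩, hsign⟩
  · have : wt (M • Q + ρ) b = M * wt Q b + dot ρ (toZ b) := hdot _
    rw [this, hρb, hQ.1]; ring
  · intro b' hb' hd h0
    exact hQ.2 b' hb' hd ((hsign b' hd).eq_zero.2 h0)
  · intro x' x'' h' h'' he
    by_contra hc
    have hmem := hW2 x' x'' h' h''
    have h1 := hρ (cmb x' x'') (mem_filter.2 ⟨hmem, hc⟩)
    have h2 := hlt _ hmem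
    have h3 : dot (M • Q + ρ) (cmb x' x'') = 0 := by
      rw [hcmb, dot_sub_right, dot_smul_right, dot_smul_right, ← wt_eq_dot, ← wt_eq_dot]
      linarith
    rw [hdot] at h3
    by_cases h4 : dot Q (cmb x' x'') = 0
    · rw [h4] at h3; exact h1 (by linarith)
    · have h5 : dot ρ (cmb x' x'') = -(M * dot Q (cmb x' x'')) := by linarith
      rw [h5, abs_neg, abs_mul, abs_of_pos hM0] at h2
      have h6 : 1 ≤ |dot Q (cmb x' x'')| := Int.one_le_abs h4
      nlinarith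

/-! ### the rank two lattice -/

/-- The saturated lattice spanned (over `ℚ`) by `u` and `w`. -/
def Lam (u w : Fin r → ℤ) : AddSubgroup (Fin r → ℤ) where
  carrier := {x | ∃ a c d : ℤ, a ≠ 0 ∧ a • x = c • u + d • w}
  zero_mem' := ⟨1, 0, 0, one_ne_zero, by simp⟩
  add_mem' := by
    rintro x y ⟨a, c, d, ha, hx⟩ ⟨a', c', d', ha', hy⟩
    refine ⟨a * a', a' * c + a * c', a' * d + a * d', mul_ne_zero ha ha', ?_⟩
    calc (a * a') • (x + y) = a' • (a • x) + a • (a' • y) := by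
          rw [smul_add, smul_smul, smul_smul, mul_comm a' a]
      _ = _ := by rw [hx, hy]; module
  neg_mem' := by
    rintro x ⟨a, c, d, ha, hx⟩
    refine ⟨a, -c, -d, ha, ?_⟩
    rw [smul_neg, hx]; module

theorem mem_Lam_iff {u w x : Fin r → ℤ} :
    x ∈ Lam u w ↔ ∃ a c d : ℤ, a ≠ 0 ∧ a • x = c • u + d • w := Iff.rfl

theorem left_mem_Lam (u w : Fin r → ℤ) : u ∈ Lam u w := ⟨1, 1, 0, one_ne_zero, by simp⟩

theorem right_mem_Lam (u w : Fin r → ℤ) : w ∈ Lam u w := ⟨1, 0, 1, one_ne_zero, by simp⟩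

theorem Lam_dep (u w : Fin r → ℤ) : ∀ x ∈ Lam u w, ∀ y ∈ Lam u w, ∀ z ∈ Lam u w,
    ∃ a b c : ℤ, (a ≠ 0 ∨ b ≠ 0 ∨ c ≠ 0) ∧ a • x + b • y + c • z = 0 := by
  rintro x ⟨a1, c1, d1, h1, e1⟩ y ⟨a2, c2, d2, h2, e2⟩ z ⟨a3, c3, d3, h3, e3⟩
  have key : ∀ p q s : ℤ, p * c1 + q * c2 + s * c3 = 0 → p * d1 + q * d2 + s * d3 = 0 →
      (p * a1) • x + (q * a2) • y + (s * a3) • z = 0 := by
    intro p q s hc hd
    calc (p * a1) • x + (q * a2) • y + (s * a3) • z
        = p • (a1 • x) + q • (a2 • y) + s • (a3 • z) := by simp only [smul_smul]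
      _ = (p * c1 + q * c2 + s * c3) • u + (p * d1 + q * d2 + s * d3) • w := by
          rw [e1, e2, e3]; module
      _ = 0 := by rw [hc, hd]; simp
  by_cases hm : c2 * d3 - c3 * d2 = 0 ∧ c3 * d1 - c1 * d3 = 0 ∧ c1 * d2 - c2 * d1 = 0
  · obtain ⟨m1, m2, m3⟩ := hm
    by_cases hc1 : c1 = 0
    · by_cases hd1 : d1 = 0
      · exact ⟨1 * a1, 0 * a2, 0 * a3, Or.inl (by simpa using h1),
          key 1 0 0 (by rw [hc1]; ring) (by rw [hd1]; ring)⟩
      · exact ⟨d2 * a1, (-d1) * a2, 0 * a3, Or.inr (Or.inl (mul_ne_zero (neg_ne_zero.2 hd1) h2)),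
          key d2 (-d1) 0 (by linarith) (by ring)⟩
    · exact ⟨c2 * a1, (-c1) * a2, 0 * a3, Or.inr (Or.inl (mul_ne_zero (neg_ne_zero.2 hc1) h2)),
        key c2 (-c1) 0 (by ring) (by linarith)⟩
  · refine ⟨(c2 * d3 - c3 * d2) * a1, (c3 * d1 - c1 * d3) * a2, (c1 * d2 - c2 * d1) * a3, ?_,
      key _ _ _ (by ring) (by ring)⟩
    by_contra hcon
    push Not at hcon
    obtain ⟨k1, k2, k3⟩ := hcon
    exact hm ⟨(mul_eq_zero.1 k1).resolve_right h1, (mul_eq_zero.1 k2).resolve_right h2,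
      (mul_eq_zero.1 k3).resolve_right h3⟩

theorem Lam_sat (u w : Fin r → ℤ) : ∀ (x : Fin r → ℤ) (n : ℤ), n ≠ 0 → n • x ∈ Lam u w →
    x ∈ Lam u w := by
  rintro x n hn ⟨a, c, d, ha, h⟩
  exact ⟨a * n, c, d, mul_ne_zero ha hn, by rw [mul_smul, h]⟩

theorem Par.exists_smul {z b : Fin r → ℤ} (h : Par z b) (hb : b ≠ 0) :
    ∃ a c : ℤ, a ≠ 0 ∧ a • z = c • b := by
  obtain ⟨j, hj⟩ : ∃ j, b j ≠ 0 := by
    by_contra hc
    push Not at hc
    exact hb (funext hc)
  refine ⟨b j, z j, hj, funext fun i => ?_⟩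
  have := h i j
  simp only [Pi.smul_apply, smul_eq_mul]
  linarith

theorem toZ_ne_zero {b : Fin r →₀ ℕ} (hb : b ≠ 0) : toZ b ≠ 0 := by
  intro h
  apply hb
  ext i
  have := congrFun h i
  simpa [toZ] using this

theorem Generic.mem_Lam {B : Matrix (Fin r) (Fin r) ℤ} {Q : Fin r → ℤ} {D : ℕ}
    {b x₀ γ : Fin r →₀ ℕ} (h : Generic B Q D b) (hb : b ≠ 0) (hx₀ : deg x₀ ≤ D)
    (hγ : deg γ ≤ D) (ho : omega B (toZ x₀) (toZ b) ≠ 0)
    (he : wt Q γ * omega B (toZ x₀) (toZ b) = wt Q x₀ * omega B (toZ γ) (toZ b)) :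
    toZ γ ∈ Lam (toZ b) (toZ x₀) := by
  obtain ⟨a, c, ha, hac⟩ := (h.joint γ x₀ hγ hx₀ he).exists_smul (toZ_ne_zero hb)
  refine ⟨a * omega B (toZ x₀) (toZ b), c, a * omega B (toZ γ) (toZ b), mul_ne_zero ha ho, ?_⟩
  rw [smul_sub] at hac
  rw [← hac, mul_smul, mul_smul]
  abel

end

end Vale.Agent.P066.Theta.H988
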