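import Vale.Agent.P066.Theta.H615.Triple

/-!
# Nested factorizations (up to degree `D`)
-/

set_option autoImplicit false

open Finset

namespace Vale.Agent.P066.Theta.H988

noncomputable section

open QSeries

variable {r : ℕ} {B : Matrix (Fin r) (Fin r) ℤ}

/-- Two triples of the same element for two forms which have the same signs on a submonoid
containing the support. -/
theorem triple_congr_on {G Gp G0 Gm Gp' G0' Gm' : QSeries B} {Q₁ Q₂ : Fin r → ℤ} {D : ℕ}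
    {S : AddSubmonoid (Fin r →₀ ℕ)} (hS : G ∈ QSeries.supp (B := B) S)
    (h : IsTriple G Gp G0 Gm Q₁) (h' : IsTriple G Gp' G0' Gm' Q₂)
    (hQ : ∀ δ, deg δ ≤ D → δ ∈ S → SameSign Q₁ Q₂ δ) (γ : Fin r →₀ ℕ) (hγ : deg γ ≤ D) :
    Gp γ = Gp' γ ∧ G0 γ = G0' γ ∧ Gm γ = Gm' γ := by
  obtain ⟨s1, s2, s3⟩ := h.mem_supp hS
  have hd : ∀ δ, δ ≤ γ → deg δ ≤ D := fun δ hδ => (deg_mono hδ).trans hγ
  obtain ⟨k1, k2, k3⟩ := triple_agree (B := B) Q₂ γ h.gp_zero h.g0_zero h.gm_zero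
    h'.gp_zero h'.g0_zero h'.gm_zero
    (fun δ hδ hz hne => (hQ δ (hd δ hδ) (s1 δ hne)).1.1 (h.gp_supp δ hz hne))
    (fun δ hδ hne => (hQ δ (hd δ hδ) (s2 δ hne)).eq_zero.1 (h.g0_supp δ hne))
    (fun δ hδ hz hne => (hQ δ (hd δ hδ) (s3 δ hne)).2.1 (h.gm_supp δ hz hne))
    (fun δ _ => h'.gp_supp δ) (fun δ _ => h'.g0_supp δ) (fun δ _ => h'.gm_supp δ)
    (by rw [← h.eq, ← h'.eq]; exact Agree.rfl')
  exact ⟨k1 γ le_rfl, k2 γ le_rfl, k3 γ le_rfl⟩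

/-- **Refinement lemma.** `Q₂` is (up to degree `D`) a perturbation of `Q` in the direction `Q₁`:
then the zero part of `g` for `Q₂` is the zero part for `Q₁` of the zero part `G` for `Q`. -/
theorem refine_zero {g P G M Gp G0 Gm P2 G2 M2 : QSeries B} {Q Q₁ Q₂ : Fin r → ℤ} {D : ℕ}
    (h : IsTriple g P G M Q) (h1 : IsTriple G Gp G0 Gm Q₁) (h2 : IsTriple g P2 G2 M2 Q₂)
    (hp : ∀ δ, deg δ ≤ D → 0 < wt Q δ → 0 < wt Q₂ δ)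
    (hm : ∀ δ, deg δ ≤ D → wt Q δ < 0 → wt Q₂ δ < 0)
    (hz : ∀ δ, deg δ ≤ D → wt Q δ = 0 → SameSign Q₁ Q₂ δ)
    (γ : Fin r →₀ ℕ) (hγ : deg γ ≤ D) : G2 γ = G0 γ := by
  obtain ⟨a, b, c, h3⟩ := exists_isTriple h.g0_zero Q₂
  have e1 := (h.refine h3 h2 γ (fun δ hδ => hp δ ((deg_mono hδ).trans hγ))
    (fun δ hδ => hm δ ((deg_mono hδ).trans hγ))).2.1 γ le_rfl
  have e2 := (triple_congr_on (D := D) (S := zeroSub Q) h.g0_mem h1 h3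
    (fun δ hd hδ => hz δ hd (mem_zeroSub.1 hδ)) γ hγ).2.1
  rw [e1, e2]

/-- The same, for the positive and the negative part. -/
theorem refine_all {g P G M Gp G0 Gm P2 G2 M2 : QSeries B} {Q Q₁ Q₂ : Fin r → ℤ} {D : ℕ}
    (h : IsTriple g P G M Q) (h1 : IsTriple G Gp G0 Gm Q₁) (h2 : IsTriple g P2 G2 M2 Q₂)
    (hp : ∀ δ, deg δ ≤ D → 0 < wt Q δ → 0 < wt Q₂ δ)
    (hm : ∀ δ, deg δ ≤ D → wt Q δ < 0 → wt Q₂ δ < 0)
    (hz : ∀ δ, deg δ ≤ D → wt Q δ = 0 → SameSign Q₁ Q₂ δ)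
    (γ : Fin r →₀ ℕ) (hγ : deg γ ≤ D) :
    P2 γ = (P * Gp) γ ∧ G2 γ = G0 γ ∧ M2 γ = (Gm * M) γ := by
  obtain ⟨a, b, c, h3⟩ := exists_isTriple h.g0_zero Q₂
  have hd : ∀ δ, δ ≤ γ → deg δ ≤ D := fun δ hδ => (deg_mono hδ).trans hγ
  obtain ⟨k1, k2, k3⟩ := h.refine h3 h2 γ (fun δ hδ => hp δ (hd δ hδ))
    (fun δ hδ => hm δ (hd δ hδ))
  have key := fun δ (hδ : deg δ ≤ D) => triple_congr_on (D := D) (S := zeroSub Q) h.g0_mem h1 h3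
    (fun δ hd hδ => hz δ hd (mem_zeroSub.1 hδ)) δ hδ
  refine ⟨?_, ?_, ?_⟩
  · rw [k1 γ le_rfl]
    exact (Agree.rfl'.mul fun δ hδ => (key δ (hd δ hδ)).1.symm) γ le_rfl
  · rw [k2 γ le_rfl, (key γ hγ).2.1]
  · rw [k3 γ le_rfl]
    exact (Agree.mul (fun δ hδ => (key δ (hd δ hδ)).2.2.symm) Agree.rfl') γ le_rfl

end

end Vale.Agent.P066.Theta.H988
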